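/-
S0351 package HAZEWINKEL, part: the grading of Hazewinkel's law, Frobenius twist, and the
endomorphisms `t X`, `X^(p^l)` of the law with parameters `e_h`.
-/
import Crest.Agent.LT.Hazewinkel

set_option autoImplicit false

open Crest.LubinTate
open scoped Classical

namespace Crest.Agent.LT

noncomputable section

variable (p : ℕ) [Fact p.Prime]

section Specialise

variable {R S : Type*} [CommRing R] [CommRing S]

/-- Frobenius twist in characteristic `p`: `F_v^{(p)} = F_{v^p}`. -/
theorem hzv_frob_aux [CharP R p] (v : ℕ → R) :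
    (hzv p v).map (frobenius R p) = hzv p (fun i => v i ^ p) := by
  rw [hzv_map]
  rfl

theorem eParam_pow [CharP R p] (h : ℕ) : (fun i => (eParam h : ℕ → R) i ^ p) = eParam h := by
  have hp : p ≠ 0 := (Fact.out : p.Prime).ne_zero
  funext i
  simp only [eParam]
  split_ifs
  · rw [one_pow]
  · rw [zero_pow hp]

/-- `X^(p^l)` is an endomorphism of `F_{e_h}` in characteristic `p`. -/
theorem isFGHom_X_pow_eParam_aux [CharP R p] (h l : ℕ) :
    IsFGHom (hzv p (eParam h : ℕ → R)) (hzv p (eParam h : ℕ → R)) (PowerSeries.X ^ (p ^ l)) := by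
  have hp : p ≠ 0 := (Fact.out : p.Prime).ne_zero
  induction l with
  | zero => simpa using fgHom_id (hzv p (eParam h : ℕ → R))
  | succ l ih =>
    have h1 : IsFGHom (hzv p (eParam h : ℕ → R)) (hzv p (eParam h : ℕ → R)) (PowerSeries.X ^ p) := by
      have := isFGHom_X_pow_p p (hzv p (eParam h : ℕ → R))
      rwa [frobLaw, hzv_frob_aux, eParam_pow] at this
    have h2 := fgHom_comp h1 ih
    have h3 : scomp ((PowerSeries.X : PowerSeries R) ^ p) (PowerSeries.X ^ (p ^ l)) =
        PowerSeries.X ^ (p ^ (l + 1)) := by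
      have hc : PowerSeries.constantCoeff ((PowerSeries.X : PowerSeries R) ^ (p ^ l)) = 0 := by
        rw [map_pow, PowerSeries.constantCoeff_X, zero_pow (pow_ne_zero l hp)]
      rw [scomp, psubst_X_pow (hasSubst_of_cc hc), ← pow_mul, pow_succ]
    rwa [h3] at h2

end Specialise

/-! ### The universal grading identity -/

/-- Universal ring with the parameters `v` and the scalar `t`. -/
abbrev hzVR : Type := MvPolynomial (Option ℕ) ℤ

abbrev hzVQ : Type := MvPolynomial (Option ℕ) ℚ

def hzVRtoVQ : hzVR →+* hzVQ := MvPolynomial.map (Int.castRingHom ℚ)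

theorem hzVRtoVQ_injective : Function.Injective hzVRtoVQ :=
  MvPolynomial.map_injective _ Int.cast_injective

section QAlg

variable {L : Type*} [CommRing L] [Algebra ℚ L]

/-- The logarithm with parameters `v`. -/
def hzLogAt (v : ℕ → L) : PowerSeries L :=
  PowerSeries.map (MvPolynomial.aeval v : UQ →ₐ[ℚ] L).toRingHom (hzLog p)

theorem coeff_hzLogAt_pow (v : ℕ → L) (k : ℕ) :
    PowerSeries.coeff (p ^ k) (hzLogAt p v) = MvPolynomial.aeval v (hzEll p k) := by
  rw [hzLogAt, PowerSeries.coeff_map, coeff_hzLog]; rfl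

theorem coeff_hzLogAt_of_not (v : ℕ → L) (j : ℕ) (hj : ¬ ∃ k, j = p ^ k) :
    PowerSeries.coeff j (hzLogAt p v) = 0 := by
  rw [hzLogAt, PowerSeries.coeff_map, coeff_hzLog_of_not p j hj, map_zero]

theorem cc_hzLogAt (v : ℕ → L) : PowerSeries.constantCoeff (hzLogAt p v) = 0 := by
  rw [← PowerSeries.coeff_zero_eq_constantCoeff_apply]
  apply coeff_hzLogAt_of_not
  rintro ⟨k, hk⟩
  exact pow_ne_zero k (Fact.out : p.Prime).ne_zero hk.symm

theorem coeff_one_hzLogAt (v : ℕ → L) : PowerSeries.coeff 1 (hzLogAt p v) = 1 := by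
  have := coeff_hzLogAt_pow p v 0
  rw [pow_zero, hzEll_zero, map_one] at this
  exact this

/-- Homogeneity of `ℓ_k`. -/
theorem aeval_hzEll_scale (v : ℕ → L) (τ : L) (k : ℕ) :
    MvPolynomial.aeval (fun i => τ ^ (p ^ (i + 1) - 1) * v i) (hzEll p k) =
      τ ^ (p ^ k - 1) * MvPolynomial.aeval v (hzEll p k) := by
  have hp0 : 0 < p := (Fact.out : p.Prime).pos
  induction k using Nat.strong_induction_on with
  | _ k ih =>
    rcases Nat.eq_zero_or_pos k with rfl | hk
    · simp [hzEll_zero]
    have hinv : IsUnit ((p : ℕ) : L) := by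
      have : ((p : ℕ) : L) = algebraMap ℚ L (p : ℚ) := by simp
      rw [this]
      exact (IsUnit.mk0 _ (by exact_mod_cast hp0.ne')).map _
    apply hinv.mul_left_cancel
    have hr := hzEll_rec p k hk
    have h1 := congrArg (MvPolynomial.aeval (fun i => τ ^ (p ^ (i + 1) - 1) * v i)) hr
    have h2 := congrArg (MvPolynomial.aeval v) hr
    rw [map_mul, map_natCast] at h1 h2
    rw [h1]
    rw [mul_left_comm, h2, map_sum, map_sum, Finset.mul_sum]
    refine Finset.sum_congr rfl fun i hi => ?_
    obtain ⟨hi1, hik⟩ := Finset.mem_Icc.mp hi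
    rw [map_mul, map_mul, map_pow, map_pow, MvPolynomial.aeval_X, MvPolynomial.aeval_X,
      ih (k - i) (by omega), Nat.sub_add_cancel hi1]
    have hexp : p ^ k - 1 = (p ^ (k - i) - 1) + (p ^ i - 1) * p ^ (k - i) := by
      have h3 : p ^ k = p ^ i * p ^ (k - i) := by rw [← pow_add]; congr 1; omega
      have h4 : 1 ≤ p ^ (k - i) := Nat.one_le_pow _ _ hp0
      have h5 : 1 ≤ p ^ i := Nat.one_le_pow _ _ hp0
      rw [h3, Nat.sub_mul, one_mul]
      have h6 : p ^ (k - i) ≤ p ^ i * p ^ (k - i) := Nat.le_mul_of_pos_left _ h5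
      omega
    rw [hexp, pow_add, mul_pow, ← pow_mul]
    ring

theorem hzLogAt_scale (v : ℕ → L) (τ : L) :
    PowerSeries.C τ * hzLogAt p (fun i => τ ^ (p ^ (i + 1) - 1) * v i) =
      PowerSeries.rescale τ (hzLogAt p v) := by
  have hp0 : 0 < p := (Fact.out : p.Prime).pos
  ext j
  rw [PowerSeries.coeff_C_mul, PowerSeries.coeff_rescale]
  by_cases hj : ∃ k, j = p ^ k
  · obtain ⟨k, rfl⟩ := hj
    rw [coeff_hzLogAt_pow, coeff_hzLogAt_pow, aeval_hzEll_scale, ← mul_assoc, ← pow_succ']
    congr 2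
    have : 1 ≤ p ^ k := Nat.one_le_pow _ _ hp0
    omega
  · rw [coeff_hzLogAt_of_not p _ j hj, coeff_hzLogAt_of_not p _ j hj, mul_zero, mul_zero]

omit [Algebra ℚ L] in
/-- `f(τ a) = (rescale τ f)(a)`. -/
theorem psubst_rescale {σ : Type*} (f : PowerSeries L) (τ : L) {a : MvPowerSeries σ L}
    (ha : MvPowerSeries.constantCoeff a = 0) :
    PowerSeries.subst a (PowerSeries.rescale τ f) =
      PowerSeries.subst (MvPowerSeries.C τ * a) f := by
  have hs : PowerSeries.HasSubst a := PowerSeries.HasSubst.of_constantCoeff_zero ha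
  have hX : PowerSeries.HasSubst (τ • (PowerSeries.X : PowerSeries L)) :=
    hasSubst_of_cc (by simp)
  rw [PowerSeries.rescale_eq_subst, PowerSeries.subst_comp_subst_apply hX hs,
    PowerSeries.subst_smul hs, PowerSeries.subst_X hs, MvPowerSeries.smul_eq_C_mul]

omit [Algebra ℚ L] in
theorem psubst_C_mul {σ : Type*} (f : PowerSeries L) (τ : L) {a : MvPowerSeries σ L}
    (ha : MvPowerSeries.constantCoeff a = 0) :
    PowerSeries.subst a (PowerSeries.C τ * f) =
      MvPowerSeries.C τ * PowerSeries.subst a f := by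
  have hs : PowerSeries.HasSubst a := PowerSeries.HasSubst.of_constantCoeff_zero ha
  rw [PowerSeries.subst_mul hs, PowerSeries.subst_C]

theorem hzLogAt_at {σ : Type*} (v : ℕ → L) {a b : MvPowerSeries σ L}
    (ha : MvPowerSeries.constantCoeff a = 0) (hb : MvPowerSeries.constantCoeff b = 0) :
    PowerSeries.subst ((hzv p v).toPowerSeries.subst ![a, b]) (hzLogAt p v) =
      PowerSeries.subst a (hzLogAt p v) + PowerSeries.subst b (hzLogAt p v) := by
  have hc := hasSubst_pair ha hb
  have := congrArg (MvPowerSeries.subst ![a, b]) (hzv_log p v)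
  rw [mv_subst_psubst _ (PowerSeries.HasSubst.of_constantCoeff_zero (hzv p v).zero_constantCoeff) hc,
    MvPowerSeries.subst_add hc, mv_subst_psubst_X _ 0 hc, mv_subst_psubst_X _ 1 hc] at this
  exact this

theorem hzLogAt_injective {σ : Type*} (v : ℕ → L) {a b : MvPowerSeries σ L}
    (ha : MvPowerSeries.constantCoeff a = 0) (hb : MvPowerSeries.constantCoeff b = 0)
    (h : PowerSeries.subst a (hzLogAt p v) = PowerSeries.subst b (hzLogAt p v)) : a = b := by
  have hc := cc_hzLogAt p v
  have hu : IsUnit (PowerSeries.coeff 1 (hzLogAt p v)) := by rw [coeff_one_hzLogAt]; exact isUnit_one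
  have h1 := psubst_scomp_of_eq_X hc (compInv_scomp _ hc hu) ha
  have h2 := psubst_scomp_of_eq_X hc (compInv_scomp _ hc hu) hb
  rw [← h1, ← h2, h]

/-- The grading over a `ℚ`-algebra. -/
theorem grading_QAlg (v : ℕ → L) (τ : L) :
    (hzv p v).toPowerSeries.subst
        ![MvPowerSeries.C τ * (MvPowerSeries.X 0 : MvPowerSeries (Fin 2) L),
          MvPowerSeries.C τ * MvPowerSeries.X 1] =
      MvPowerSeries.C τ * (hzv p (fun i => τ ^ (p ^ (i + 1) - 1) * v i)).toPowerSeries := by
  set w : ℕ → L := fun i => τ ^ (p ^ (i + 1) - 1) * v i with hw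
  have c0 : MvPowerSeries.constantCoeff (MvPowerSeries.C τ * (MvPowerSeries.X 0 : MvPowerSeries (Fin 2) L)) = 0 := by
    simp
  have c1 : MvPowerSeries.constantCoeff (MvPowerSeries.C τ * (MvPowerSeries.X 1 : MvPowerSeries (Fin 2) L)) = 0 := by
    simp
  have cB : MvPowerSeries.constantCoeff (hzv p w).toPowerSeries = 0 := (hzv p w).zero_constantCoeff
  apply hzLogAt_injective p v (law_cc _ c0 c1) (by simp [cB])
  rw [hzLogAt_at p v c0 c1, ← psubst_rescale _ _ cB, ← hzLogAt_scale, psubst_C_mul _ _ cB,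
    ← psubst_rescale _ _ (cc_X 0), ← psubst_rescale _ _ (cc_X 1), ← hzLogAt_scale,
    psubst_C_mul _ _ (cc_X 0), psubst_C_mul _ _ (cc_X 1), ← mul_add]
  congr 1
  exact (hzv_log p w).symm

end QAlg

section General

variable {R S : Type*} [CommRing R] [CommRing S]

theorem psubst_C_mul' {σ : Type*} (f : PowerSeries R) (τ : R) {a : MvPowerSeries σ R}
    (ha : MvPowerSeries.constantCoeff a = 0) :
    PowerSeries.subst a (PowerSeries.C τ * f) =
      MvPowerSeries.C τ * PowerSeries.subst a f := by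
  have hs : PowerSeries.HasSubst a := PowerSeries.HasSubst.of_constantCoeff_zero ha
  rw [PowerSeries.subst_mul hs, PowerSeries.subst_C]

theorem grading_lhs_map (φ : R →+* S) (v : ℕ → R) (t : R) :
    MvPowerSeries.map φ ((hzv p v).toPowerSeries.subst
        ![MvPowerSeries.C t * (MvPowerSeries.X 0 : MvPowerSeries (Fin 2) R),
          MvPowerSeries.C t * MvPowerSeries.X 1]) =
      (hzv p (fun i => φ (v i))).toPowerSeries.subst
        ![MvPowerSeries.C (φ t) * (MvPowerSeries.X 0 : MvPowerSeries (Fin 2) S),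
          MvPowerSeries.C (φ t) * MvPowerSeries.X 1] := by
  rw [map_law_subst φ _ (by simp) (by simp), ← hzv_map p φ v]
  simp only [map_mul, MvPowerSeries.map_C, MvPowerSeries.map_X]
  rfl

theorem grading_rhs_map (φ : R →+* S) (v : ℕ → R) (t : R) :
    MvPowerSeries.map φ (MvPowerSeries.C t *
        (hzv p (fun i => t ^ (p ^ (i + 1) - 1) * v i)).toPowerSeries) =
      MvPowerSeries.C (φ t) *
        (hzv p (fun i => φ t ^ (p ^ (i + 1) - 1) * φ (v i))).toPowerSeries := by
  rw [map_mul, MvPowerSeries.map_C]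
  congr 1
  have := congrArg FormalGroup.toPowerSeries (hzv_map p φ (fun i => t ^ (p ^ (i + 1) - 1) * v i))
  simp only [map_mul, map_pow] at this
  exact this

/-- Grading: `F_v(tX, tY) = t F_{t*v}(X,Y)`, where `(t*v)_i = t^(p^i - 1) v_i`. Proved over
`ℚ[v,t]` from `ℓ_k(t*v) = t^(p^k - 1) ℓ_k(v)`. -/
theorem hzv_grading_aux (v : ℕ → R) (t : R) :
    (hzv p v).toPowerSeries.subst
        ![MvPowerSeries.C t * (MvPowerSeries.X 0 : MvPowerSeries (Fin 2) R),
          MvPowerSeries.C t * MvPowerSeries.X 1] =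
      MvPowerSeries.C t * (hzv p (fun i => t ^ (p ^ (i + 1) - 1) * v i)).toPowerSeries := by
  -- the universal identity
  set vV : ℕ → hzVR := fun i => MvPolynomial.X (some i) with hvV
  set tV : hzVR := MvPolynomial.X none with htV
  have huniv : (hzv p vV).toPowerSeries.subst
        ![MvPowerSeries.C tV * (MvPowerSeries.X 0 : MvPowerSeries (Fin 2) hzVR),
          MvPowerSeries.C tV * MvPowerSeries.X 1] =
      MvPowerSeries.C tV * (hzv p (fun i => tV ^ (p ^ (i + 1) - 1) * vV i)).toPowerSeries := by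
    have hq := grading_QAlg p (fun i => hzVRtoVQ (vV i)) (hzVRtoVQ tV)
    rw [← grading_lhs_map, ← grading_rhs_map] at hq
    refine MvPowerSeries.ext fun m => ?_
    apply hzVRtoVQ_injective
    have := congrArg (MvPowerSeries.coeff m) hq
    simpa only [MvPowerSeries.coeff_map] using this
  set spec : hzVR →+* R := MvPolynomial.eval₂Hom (Int.castRingHom R)
    (fun o => o.elim t v) with hspec
  have hs1 : spec tV = t := by rw [hspec, htV]; simp
  have hs2 : ∀ i, spec (vV i) = v i := by
    intro i; rw [hspec, hvV]; simp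
  have := congrArg (MvPowerSeries.map spec) huniv
  rw [grading_lhs_map, grading_rhs_map, hs1] at this
  simp only [hs2] at this
  exact this

/-- In a domain: `t X` is an endomorphism of `F_{e_h}` when `t^(p^h) = t`. -/
theorem isFGHom_scalar_eParam_aux [IsDomain R] (h : ℕ) (hh : 1 ≤ h) (t : R) (ht : t ^ (p ^ h) = t) :
    IsFGHom (hzv p (eParam h : ℕ → R)) (hzv p (eParam h : ℕ → R))
      (PowerSeries.C t * PowerSeries.X) := by
  have hp0 : 0 < p := (Fact.out : p.Prime).pos
  set F := hzv p (eParam h : ℕ → R) with hF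
  have hcF : MvPowerSeries.constantCoeff F.toPowerSeries = 0 := F.zero_constantCoeff
  have hmul : ∀ {a : MvPowerSeries (Fin 2) R}, MvPowerSeries.constantCoeff a = 0 →
      PowerSeries.subst a (PowerSeries.C t * PowerSeries.X) = MvPowerSeries.C t * a := by
    intro a ha
    rw [psubst_C_mul' _ _ ha, PowerSeries.subst_X (PowerSeries.HasSubst.of_constantCoeff_zero ha)]
  refine ⟨by simp, ?_⟩
  rw [hmul hcF, hmul (cc_X 0), hmul (cc_X 1)]
  by_cases ht0 : t = 0
  · subst ht0
    have h0 : PowerSeries.HasSubst (0 : MvPowerSeries (Fin 2) R) := PowerSeries.HasSubst.zero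
    have := FormalGroup.add_zero F h0
    simpa using this.symm
  have hexp : t ^ (p ^ h - 1) = 1 := by
    apply mul_left_cancel₀ ht0
    rw [← pow_succ', mul_one, Nat.sub_add_cancel (Nat.one_le_pow _ _ hp0), ht]
  have hparam : (fun i => t ^ (p ^ (i + 1) - 1) * (eParam h : ℕ → R) i) = eParam h := by
    funext i
    simp only [eParam]
    split_ifs with hi
    · rw [hi, hexp, mul_one]
    · rw [mul_zero]
  have := hzv_grading_aux p (eParam h : ℕ → R) t
  rw [hparam] at this
  exact this.symm

end General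

end

end Crest.Agent.LT
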