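/-
S0351 package HAZEWINKEL, part: `p`-typicality `hzv_ptypical_aux`.
Uses only the statements `hzLog`, `coeff_hzLog`, `coeff_hzLog_of_not`, `hzEll_zero`, `hzv`, `hzv_map`, `hzv_log`, `tokenPt`.
(helper45). Final wiring: this file must import the part of `Hazewinkel.lean` holding those statements.
-/
import Crest.Agent.LT.Hazewinkel
import Crest.Agent.LT.NegSeries

set_option autoImplicit false

open Crest.LubinTate

namespace Crest.Agent.LT

noncomputable section

namespace TypicalAux

variable {R S : Type*} [CommRing R] [CommRing S]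

/-- Powers prime to `ℓ` of a root of `1 + ζ + … + ζ^(ℓ-1)`, in a domain where `ℓ ≠ 0`. -/
theorem geom_sum_pow_eq_zero' [IsDomain R] {ℓ : ℕ} (hℓ : ℓ.Prime) (hℓ0 : (ℓ : R) ≠ 0) {ζ : R}
    (hζ : ∑ a ∈ Finset.range ℓ, ζ ^ a = 0) {m : ℕ} (hm : ¬ ℓ ∣ m) :
    ∑ a ∈ Finset.range ℓ, (ζ ^ m) ^ a = 0 := by
  have h1 : ζ ^ ℓ = 1 := by
    have := geom_sum_mul ζ ℓ
    rw [hζ, zero_mul] at this
    exact (sub_eq_zero.mp this.symm)
  have h2 : (ζ ^ m) ^ ℓ = 1 := by rw [← pow_mul, mul_comm, pow_mul, h1, one_pow]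
  have h3 := geom_sum_mul (ζ ^ m) ℓ
  rw [h2, sub_self] at h3
  rcases mul_eq_zero.mp h3 with h4 | h4
  · exact h4
  · exfalso
    have h5 : ζ ^ m = 1 := sub_eq_zero.mp h4
    have h6 : orderOf ζ ∣ m := orderOf_dvd_of_pow_eq_one h5
    have h7 : orderOf ζ ∣ ℓ := orderOf_dvd_of_pow_eq_one h1
    have h8 : Nat.Coprime ℓ m := (Nat.Prime.coprime_iff_not_dvd hℓ).mpr hm
    have h9 : orderOf ζ = 1 := Nat.eq_one_of_dvd_coprimes h8 h7 h6
    have h10 : ζ = 1 := orderOf_eq_one_iff.mp h9
    rw [h10] at hζ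
    simp at hζ
    exact hℓ0 hζ

/-- Substitution into a logarithm is additive on points. -/
theorem subst_additive {F : FormalGroup R} {Λ : PowerSeries R}
    (hlog : PowerSeries.subst F.toPowerSeries Λ =
      PowerSeries.subst (MvPowerSeries.X 0 : MvPowerSeries (Fin 2) R) Λ +
        PowerSeries.subst (MvPowerSeries.X 1 : MvPowerSeries (Fin 2) R) Λ)
    {x y : PowerSeries R} (hx : PowerSeries.HasSubst x) (hy : PowerSeries.HasSubst y) :
    PowerSeries.subst (F.toPowerSeries.subst ![x, y] : PowerSeries R) Λ =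
      PowerSeries.subst x Λ + PowerSeries.subst y Λ := by
  have hpair := hasSubst_pairN hx hy
  have h0 : PowerSeries.HasSubst F.toPowerSeries :=
    PowerSeries.HasSubst.of_constantCoeff_zero F.zero_constantCoeff
  have hX (i : Fin 2) : PowerSeries.HasSubst (MvPowerSeries.X i : MvPowerSeries (Fin 2) R) :=
    PowerSeries.HasSubst.X i
  have h1 := congrArg (MvPowerSeries.subst ![x, y]) hlog
  rw [PowerSeries.subst_def, MvPowerSeries.subst_comp_subst_apply h0.const hpair,
    MvPowerSeries.subst_add hpair, PowerSeries.subst_def, PowerSeries.subst_def,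
    MvPowerSeries.subst_comp_subst_apply (hX 0).const hpair,
    MvPowerSeries.subst_comp_subst_apply (hX 1).const hpair] at h1
  simp only [Fin.isValue, MvPowerSeries.subst_X hpair, Matrix.cons_val_zero, Matrix.cons_val_one,
    Matrix.cons_val_fin_one] at h1
  exact h1

theorem coeff_subst_scal' (u : R) (f : PowerSeries R) (i : ℕ) :
    PowerSeries.coeff i (PowerSeries.subst (PowerSeries.C u * PowerSeries.X ^ 1 : PowerSeries R) f) =
      u ^ i * PowerSeries.coeff i f := by
  have : (PowerSeries.C u * PowerSeries.X ^ 1 : PowerSeries R) = (u • PowerSeries.X : PowerSeries R) := by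
    rw [pow_one, PowerSeries.smul_eq_C_mul]
  rw [this, ← PowerSeries.rescale_eq_subst, PowerSeries.coeff_rescale]

/-- A sum of tokens has zero constant coefficient. -/
theorem constantCoeff_sum_token (F : FormalGroup R) [F.IsComm] (c : ℕ → R) (e : ℕ) (he : e ≠ 0) (n : ℕ) :
    PowerSeries.constantCoeff
      ((∑ a ∈ Finset.range n, tokenPt F (c a) e he : F.Point Unit).val : PowerSeries R) = 0 := by
  induction n with
  | zero => simp
  | succ n ih =>
    rw [Finset.sum_range_succ]
    refine constantCoeff_law F ih ?_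
    change PowerSeries.constantCoeff (PowerSeries.C (c n) * PowerSeries.X ^ e : PowerSeries R) = 0
    rw [map_mul, map_pow, PowerSeries.constantCoeff_X, zero_pow he, mul_zero]

/-- Sums of tokens commute with ring maps. -/
theorem map_sum_token (φ : R →+* S) (F : FormalGroup R) [F.IsComm] (G : FormalGroup S) [G.IsComm]
    (hG : G = F.map φ) (c : ℕ → R) (e : ℕ) (he : e ≠ 0) (n : ℕ) :
    PowerSeries.map φ ((∑ a ∈ Finset.range n, tokenPt F (c a) e he : F.Point Unit).val : PowerSeries R) =
      ((∑ a ∈ Finset.range n, tokenPt G (φ (c a)) e he : G.Point Unit).val : PowerSeries S) := by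
  subst hG
  induction n with
  | zero =>
    simp only [Finset.range_zero, Finset.sum_empty]
    change PowerSeries.map φ (0 : PowerSeries R) = 0
    simp
  | succ n ih =>
    rw [Finset.sum_range_succ, Finset.sum_range_succ]
    change PowerSeries.map φ (F.toPowerSeries.subst
        ![((∑ a ∈ Finset.range n, tokenPt F (c a) e he : F.Point Unit).val : PowerSeries R),
          PowerSeries.C (c n) * PowerSeries.X ^ e]) =
      (F.map φ).toPowerSeries.subst
        ![((∑ a ∈ Finset.range n, tokenPt (F.map φ) (φ (c a)) e he : (F.map φ).Point Unit).val : PowerSeries S),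
          PowerSeries.C (φ (c n)) * PowerSeries.X ^ e]
    have hpair := hasSubst_pairN
      (∑ a ∈ Finset.range n, tokenPt F (c a) e he : F.Point Unit).prop
      (tokenPt F (c n) e he).prop
    have := MvPowerSeries.map_subst hpair (h := φ) F.toPowerSeries
    have h2 : (fun i => MvPowerSeries.map φ
        (![((∑ a ∈ Finset.range n, tokenPt F (c a) e he : F.Point Unit).val : PowerSeries R),
          (tokenPt F (c n) e he).val] i)) =
        ![((∑ a ∈ Finset.range n, tokenPt (F.map φ) (φ (c a)) e he : (F.map φ).Point Unit).val : PowerSeries S),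
          PowerSeries.C (φ (c n)) * PowerSeries.X ^ e] := by
      ext1 i
      fin_cases i
      · exact ih
      · change PowerSeries.map φ (PowerSeries.C (c n) * PowerSeries.X ^ e) = _
        rw [map_mul, map_pow, PowerSeries.map_C, PowerSeries.map_X]
        rfl
    rw [h2] at this
    exact this

end TypicalAux

open TypicalAux

variable (p : ℕ) [Fact p.Prime]

/-- The case of a domain that is a `ℚ`-algebra. -/
theorem hzv_ptypical_rat {L : Type*} [CommRing L] [IsDomain L] [Algebra ℚ L] (hL : ∀ n : ℕ, n ≠ 0 → (n : L) ≠ 0)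
    (v : ℕ → L) (ℓ : ℕ) (hlp : ℓ.Prime) (hℓ : ℓ ≠ p) (ζ : L)
    (hζ : ∑ a ∈ Finset.range ℓ, ζ ^ a = 0) :
    ((∑ a ∈ Finset.range ℓ, tokenPt (hzv p v) (ζ ^ a) 1 one_ne_zero : (hzv p v).Point Unit).val :
      PowerSeries L) = 0 := by
  classical
  have hp : p.Prime := Fact.out
  set F := hzv p v with hF
  set Λ : PowerSeries L :=
    PowerSeries.map (MvPolynomial.aeval v : UQ →ₐ[ℚ] L).toRingHom (hzLog p) with hΛ
  have hlog := hzv_log (p := p) v
  have hc0 : PowerSeries.constantCoeff Λ = 0 := by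
    have h0 : PowerSeries.coeff 0 (hzLog p) = 0 := by
      apply coeff_hzLog_of_not
      rintro ⟨k, hk⟩
      exact (pow_pos hp.pos k).ne hk
    rw [← PowerSeries.coeff_zero_eq_constantCoeff_apply, hΛ, PowerSeries.coeff_map, h0, map_zero]
  have hc1 : PowerSeries.coeff 1 Λ = 1 := by
    have h0 := coeff_hzLog (p := p) 0
    rw [pow_zero, hzEll_zero] at h0
    rw [hΛ, PowerSeries.coeff_map, h0, map_one]
  -- the logarithm of the sum is zero
  have hadd : ∀ n : ℕ, PowerSeries.subst
      ((∑ a ∈ Finset.range n, tokenPt F (ζ ^ a) 1 one_ne_zero : F.Point Unit).val : PowerSeries L) Λ =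
      ∑ a ∈ Finset.range n, PowerSeries.subst (PowerSeries.C (ζ ^ a) * PowerSeries.X ^ 1 : PowerSeries L) Λ := by
    intro n
    induction n with
    | zero =>
      simp only [Finset.range_zero, Finset.sum_empty]
      exact PowerSeries.subst_zero_of_constantCoeff_zero hc0
    | succ n ih =>
      rw [Finset.sum_range_succ, Finset.sum_range_succ, ← ih]
      exact subst_additive hlog (Subtype.prop _) (tokenPt F (ζ ^ n) 1 one_ne_zero).prop
  have hzero : PowerSeries.subst
      ((∑ a ∈ Finset.range ℓ, tokenPt F (ζ ^ a) 1 one_ne_zero : F.Point Unit).val : PowerSeries L) Λ = 0 := by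
    rw [hadd]
    ext n
    rw [map_sum, map_zero]
    simp only [coeff_subst_scal']
    rw [← Finset.sum_mul]
    by_cases hn : ∃ k, n = p ^ k
    · obtain ⟨k, rfl⟩ := hn
      have hnd : ¬ ℓ ∣ p ^ k := by
        intro h
        exact hℓ ((Nat.prime_dvd_prime_iff_eq hlp hp).mp (hlp.dvd_of_dvd_pow h))
      have := geom_sum_pow_eq_zero' hlp (hL ℓ hlp.ne_zero) hζ hnd
      have h2 : ∑ a ∈ Finset.range ℓ, (ζ ^ a) ^ p ^ k = ∑ a ∈ Finset.range ℓ, (ζ ^ p ^ k) ^ a :=
        Finset.sum_congr rfl fun a _ => by rw [← pow_mul, ← pow_mul, mul_comm]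
      rw [h2, this, zero_mul]
    · rw [hΛ, PowerSeries.coeff_map, coeff_hzLog_of_not (p := p) n hn, map_zero, mul_zero]
  -- invert the logarithm
  have hinv : Invertible (PowerSeries.coeff 1 Λ) := hc1.symm ▸ invertibleOne
  set f : PowerSeries L := ((∑ a ∈ Finset.range ℓ, tokenPt F (ζ ^ a) 1 one_ne_zero : F.Point Unit).val) with hf
  have hfc : PowerSeries.constantCoeff f = 0 :=
    constantCoeff_sum_token F (fun a => ζ ^ a) 1 one_ne_zero ℓ
  have hfs : PowerSeries.HasSubst f := PowerSeries.HasSubst.of_constantCoeff_zero' hfc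
  have hΛs : PowerSeries.HasSubst Λ := PowerSeries.HasSubst.of_constantCoeff_zero' hc0
  have h1 : PowerSeries.subst f (PowerSeries.subst Λ Λ.substInv) = f := by
    rw [PowerSeries.subst_substInv_left _ hc0, PowerSeries.subst_X hfs]
  rw [PowerSeries.subst_comp_subst_apply hΛs hfs, hzero,
    PowerSeries.subst_zero_of_constantCoeff_zero (PowerSeries.constantCoeff_substInv _)] at h1
  have hC : (PowerSeries.C (0 : L) : PowerSeries L) = 0 := map_zero _
  exact h1.symm

/-- `p`-typicality: for a prime `ℓ ≠ p` and `ζ` with `1 + ζ + … + ζ^(ℓ-1) = 0`: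
`∑^{F_v}_{a<ℓ} ζ^a X = 0`. Proved in `ℤ[ζ][v]` (torsion free, use `AdjoinRoot (cyclotomic ℓ ℤ)`
and its map to `R`): `log` of the sum is `∑_k ℓ_k X^(p^k) ∑_a ζ^(a p^k) = 0`. -/
theorem hzv_ptypical_aux {R : Type*} [CommRing R] (v : ℕ → R) (ℓ : ℕ) [Fact ℓ.Prime] (hℓ : ℓ ≠ p) (ζ : R)
    (hζ : ∑ a ∈ Finset.range ℓ, ζ ^ a = 0) :
    (∑ a ∈ Finset.range ℓ, tokenPt (hzv p v) (ζ ^ a) 1 one_ne_zero : (hzv p v).Point Unit).val = 0 := by
  classical
  have hlp : ℓ.Prime := Fact.out
  -- the universal ring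
  let Φ : Polynomial ℤ := Polynomial.cyclotomic ℓ ℤ
  have hΦ : Φ = ∑ i ∈ Finset.range ℓ, Polynomial.X ^ i := Polynomial.cyclotomic_prime ℤ ℓ
  have hΦirr : Irreducible Φ := Polynomial.cyclotomic.irreducible hlp.pos
  have hΦdeg : Φ.degree ≠ 0 := by
    rw [Polynomial.degree_cyclotomic, Nat.totient_prime hlp]
    have := hlp.two_le
    intro h
    have h2 : ℓ - 1 = 0 := by exact_mod_cast h
    omega
  have : IsDomain (AdjoinRoot Φ) := AdjoinRoot.isDomain_of_prime hΦirr.prime
  let A₀ := AdjoinRoot Φ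
  let A := MvPolynomial ℕ A₀
  let r₀ : A₀ := AdjoinRoot.root Φ
  have hr₀ : ∑ a ∈ Finset.range ℓ, r₀ ^ a = 0 := by
    have h : AdjoinRoot.mk Φ (∑ i ∈ Finset.range ℓ, Polynomial.X ^ i) = 0 := by
      rw [← hΦ]; exact AdjoinRoot.mk_self
    rw [map_sum] at h
    simpa [r₀, map_pow, AdjoinRoot.mk_X] using h
  -- the specialisation `A → R`
  let ψ₀ : A₀ →+* R := AdjoinRoot.lift (Int.castRingHom R) ζ (by
    rw [hΦ, Polynomial.eval₂_finsetSum]
    simpa using hζ)
  let ψ : A →+* R := MvPolynomial.eval₂Hom ψ₀ v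
  have hψX : ∀ i : ℕ, ψ (MvPolynomial.X i) = v i := fun i => MvPolynomial.eval₂_X _ _ _
  have hψC : ψ (MvPolynomial.C r₀) = ζ := by
    change MvPolynomial.eval₂Hom ψ₀ v (MvPolynomial.C r₀) = ζ
    simp only [MvPolynomial.coe_eval₂Hom, MvPolynomial.eval₂_C]
    exact AdjoinRoot.lift_root _
  -- the fraction field
  let L := FractionRing A
  have hofinj : Function.Injective (AdjoinRoot.of Φ) :=
    AdjoinRoot.of.injective_of_degree_ne_zero hΦdeg
  have hinj : Function.Injective (algebraMap A L) := IsFractionRing.injective A L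
  have hCinj : Function.Injective (MvPolynomial.C : A₀ →+* A) := MvPolynomial.C_injective _ _
  have hAL : Function.Injective ((algebraMap A L).comp ((MvPolynomial.C : A₀ →+* A).comp (AdjoinRoot.of Φ))) :=
    hinj.comp (hCinj.comp hofinj)
  have : CharZero L := (RingHom.charZero_iff hAL).mp inferInstance
  have hL : ∀ n : ℕ, n ≠ 0 → (n : L) ≠ 0 := fun n hn => Nat.cast_ne_zero.mpr hn
  let ι : A →+* L := algebraMap A L
  let w : ℕ → A := fun i => MvPolynomial.X i
  let ζA : A := MvPolynomial.C r₀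
  have hζA : ∑ a ∈ Finset.range ℓ, ζA ^ a = 0 := by
    have := congrArg (MvPolynomial.C : A₀ →+* A) hr₀
    simpa [map_sum, map_pow, ζA] using this
  have hζL : ∑ a ∈ Finset.range ℓ, (ι ζA) ^ a = 0 := by
    have := congrArg ι hζA
    simpa [map_sum, map_pow] using this
  have hrat := hzv_ptypical_rat p hL (fun i => ι (w i)) ℓ hlp hℓ (ι ζA) hζL
  -- descend to `A`
  have hA : ((∑ a ∈ Finset.range ℓ, tokenPt (hzv p w) (ζA ^ a) 1 one_ne_zero : (hzv p w).Point Unit).val :
      PowerSeries A) = 0 := by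
    have hm := map_sum_token ι (hzv p w) (hzv p (fun i => ι (w i))) (hzv_map p ι w).symm
      (fun a => ζA ^ a) 1 one_ne_zero ℓ
    simp only [map_pow] at hm
    rw [hrat] at hm
    refine PowerSeries.ext fun n => ?_
    have h2 := congrArg (PowerSeries.coeff n) hm
    rw [PowerSeries.coeff_map, map_zero] at h2
    rw [map_zero]
    apply hinj
    rw [map_zero]
    exact h2
  -- specialise to `R`
  have hv : (fun i => ψ (w i)) = v := funext hψX
  have hm := map_sum_token ψ (hzv p w) (hzv p v) (by rw [hzv_map, hv])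
    (fun a => ζA ^ a) 1 one_ne_zero ℓ
  rw [hA, map_zero] at hm
  simp only [map_pow] at hm
  rw [show ψ ζA = ζ from hψC] at hm
  exact hm.symm

end

end Crest.Agent.LT
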